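import Vale.Agent.P338.R2.H293.Bp.Pass
import Vale.Agent.P338.R2.H282.Bp.Num1

/-!
P338, stage 3: the batch multiplication on bit lists.
-/

namespace Vale.Agent.P338.R2.H293.Bp

open H778 (val bits slots conv num)
open H525 (slotAt mulBits zeros)
open H525.Fp (tri mmN)
open H784.Bp
open H282.Bp (gB_ge lt_two_pow_gB gB_pos gB_mul_dB padB_le one_le_dB four_dB_le q_le m_le
  D_mul_lt m_pos one_lt_m two_lt_q fwd fwd_lt inv_fwd conv_cut_le)

/-! Sizes. -/

section Sizes

variable {W q om nu iv n N : ℕ}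

theorem gB_le (hW : 1024 ≤ W) : gB W ≤ W := by
  have h1 := one_le_dB W
  have h2 := four_dB_le hW
  have h3 := lt_two_pow_gB W
  unfold gB
  have := Nat.log_lt_self 2 (x := W) (by omega)
  omega

theorem gd_le (hW : 1024 ≤ W) : gB W * dB W ≤ 2 * W := by
  rw [gB_mul_dB]
  have := padB_le W
  have := gB_le hW
  omega

theorem three_gB_le : gB W * 3 ≤ bB W := by unfold bB; omega

variable (hQ : Prm W q om nu iv)

include hQ

/-- Files with `N` blocks of at most `10 D` elements. -/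
theorem size_le (hn : 400 * N * W ≤ n) {A : ℕ} (hA : A ≤ 10 * dB W) : bB W * (N * A) ≤ n := by
  refine le_trans ?_ hn
  have h1 := gd_le hQ.hW
  unfold bB
  calc 20 * gB W * (N * A) ≤ 20 * gB W * (N * (10 * dB W)) :=
        Nat.mul_le_mul_left _ (Nat.mul_le_mul_left _ hA)
    _ = 200 * N * (gB W * dB W) := by ring
    _ ≤ 200 * N * (2 * W) := Nat.mul_le_mul_left _ h1
    _ = 400 * N * W := by ring

theorem size_fwd (hn : 400 * N * W ≤ n) : bB W * (N * (2 * dB W + (q - 1))) ≤ n :=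
  size_le hQ hn (by have := hQ.hq2; omega)

theorem size_inv (hn : 400 * N * W ≤ n) : bB W * (N * (2 * (q - 1) + (2 * dB W - 1))) ≤ n :=
  size_le hQ hn (by have := hQ.hq2; omega)

theorem conv_fits {A : ℕ} (hA : A ≤ 2 * q) : A * (q ^ 4 * q ^ 4) * (q ^ 4 * q ^ 4) < 2 ^ bB W := by
  have h1 := m_le hQ
  have h2 := q_le hQ
  have h3 := gB_ge hQ.hW
  calc A * (q ^ 4 * q ^ 4) * (q ^ 4 * q ^ 4) ≤ (2 * 2 ^ gB W) *
        (2 ^ (4 * gB W) * 2 ^ (4 * gB W)) * (2 ^ (4 * gB W) * 2 ^ (4 * gB W)) := by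
        apply Nat.mul_le_mul (Nat.mul_le_mul (hA.trans (Nat.mul_le_mul_left _ h2))
          (Nat.mul_le_mul h1 h1)) (Nat.mul_le_mul h1 h1)
    _ = 2 ^ (1 + gB W + (4 * gB W + 4 * gB W) + (4 * gB W + 4 * gB W)) := by
        simp only [pow_add, pow_one]
    _ < 2 ^ bB W := Nat.pow_lt_pow_right (by norm_num) (by unfold bB; omega)

theorem conv_fits' {A : ℕ} (hA : A ≤ 2 * q) : A * (q ^ 4 * q ^ 4) < 2 ^ bB W := by
  refine lt_of_le_of_lt ?_ (conv_fits hQ hA)
  have := m_pos hQ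
  exact Nat.le_mul_of_pos_right _ (by positivity)

theorem m_lt_two_pow : q ^ 4 < 2 ^ bB W := by
  have h1 := m_le hQ
  have h3 := gB_ge hQ.hW
  refine lt_of_le_of_lt h1 (Nat.pow_lt_pow_right (by norm_num) (by unfold bB; omega))

theorem dig_lt_m {z i : ℕ} : dig (gB W) (dB W) z i < q ^ 4 := by
  refine lt_trans (lt_of_lt_of_le (dig_lt _ _ _ _) ?_) (D_mul_lt hQ)
  calc 2 ^ gB W ≤ 1 * 2 ^ (2 * gB W) := by
        rw [one_mul]; exact Nat.pow_le_pow_right (by norm_num) (by omega)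
    _ ≤ dB W * 2 ^ (2 * gB W) := Nat.mul_le_mul_right _ (one_le_dB W)

end Sizes

/-! The files. -/

section Files

variable (W q om nu iv : ℕ) (x y : ℕ → ℕ)

/-- The digits of the words. -/
def dg (v i : ℕ) : ℕ := dig (gB W) (dB W) (x v) i

/-- The transforms of the digit vectors. -/
def tf (v k : ℕ) : ℕ := fwd W q om nu (dg W x v) k

/-- The elements of the first file of the inverse transform. -/
def pr (v k : ℕ) : ℕ := tf W q om nu x v k * tf W q om nu y v k % q ^ 4 *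
  (iv * (nu ^ tri (k + 1) % q ^ 4) % q ^ 4) % q ^ 4

/-- The coefficients. -/
def co (v j : ℕ) : ℕ := conv (H282.Bp.cut (dB W) (dg W x v)) (H282.Bp.cut (dB W) (dg W y v)) j

end Files

section Main

variable {W q om nu iv n N : ℕ} (hQ : Prm W q om nu iv)

include hQ

theorem spread_eq {x : ℕ → ℕ} (hx : ∀ i < N, x i < 2 ^ W) :
    spreadB (gB W) (bB W) (N * dB W) (padW (padB W) W N x) =
      slots (bB W) (N * dB W) (grp (dB W) (dg W x)) := by
  rw [padW_grp (gB W) (dB W) (padB W) W N (by rw [gB_mul_dB, add_comm]) x hx,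
    spreadB_slots _ _ _ (by have := three_gB_le (W := W); omega)]
  · rfl
  · intro i _
    exact dig_lt _ _ _ _

theorem pre_eq {x : ℕ → ℕ} (hx : ∀ i < N, x i < 2 ^ W) :
    preB (bB W) (dB W) (q - 1) (q ^ 4) om N (spreadB (gB W) (bB W) (N * dB W)
      (padW (padB W) W N x)) = slots (bB W) (N * (2 * dB W + (q - 1)))
        (blk (dB W) (2 * dB W + (q - 1)) N fun v i => preN (q ^ 4) om (dg W x v i) i) := by
  rw [spread_eq hQ hx, preB_slots]
  intro v i _ _
  exact lt_trans (dig_lt_m hQ) (m_lt_two_pow hQ)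

theorem preN_lt (r x i : ℕ) : preN (q ^ 4) r x i < q ^ 4 := Nat.mod_lt _ (m_pos hQ)

/-- The forward transform. -/
theorem fwdB_eq (hn : 400 * N * W ≤ n) {x : ℕ → ℕ} (hx : ∀ i < N, x i < 2 ^ W) :
    fwdB W q om nu n N (padW (padB W) W N x) =
      slots (bB W) (N * (q - 1)) (grp (q - 1) (tf W q om nu x)) := by
  unfold fwdB
  have hq1 := hQ.hq1
  rw [pre_eq hQ hx, postB_slots (bB W) n (dB W) (q - 1) (q ^ 4) om nu N _ (one_le_dB W)
    (size_fwd hQ hn) (m_pos hQ) (fun v i _ _ => preN_lt hQ _ _ _)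
    (conv_fits' hQ (by omega))]
  rfl

theorem tf_lt (x : ℕ → ℕ) (v k : ℕ) : tf W q om nu x v k < q ^ 4 := fwd_lt hQ _ _

theorem pr_lt (x y : ℕ → ℕ) (v k : ℕ) : pr W q om nu iv x y v k < q ^ 4 :=
  Nat.mod_lt _ (m_pos hQ)

theorem pre2_eq {x y : ℕ → ℕ} :
    pre2B (bB W) (q - 1) (2 * dB W - 1) (q ^ 4) nu iv N (pairB (bB W) (N * (q - 1))
      (slots (bB W) (N * (q - 1)) (grp (q - 1) (tf W q om nu x)))
      (slots (bB W) (N * (q - 1)) (grp (q - 1) (tf W q om nu y)))) =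
    slots (bB W) (N * (2 * (q - 1) + (2 * dB W - 1)))
      (blk (q - 1) (2 * (q - 1) + (2 * dB W - 1)) N (pr W q om nu iv x y)) := by
  rw [pre2B_slots _ _ _ _ _ _ _ _ _ (fun v i _ _ => (tf_lt hQ x v i).trans (m_lt_two_pow hQ))
    (fun v i _ _ => (tf_lt hQ y v i).trans (m_lt_two_pow hQ))]
  rfl

theorem co_eq (x y : ℕ → ℕ) (v : ℕ) {j : ℕ} (hj : j < 2 * dB W - 1) :
    cztN (q - 1) (q ^ 4) nu om (pr W q om nu iv x y v) j = co W x y v j :=
  inv_fwd hQ (fun i _ => dig_lt _ _ _ _) (fun i _ => dig_lt _ _ _ _) hj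

/-- The inverse transform. -/
theorem invB_eq (hn : 400 * N * W ≤ n) (x y : ℕ → ℕ) :
    invB W q om nu iv n N (pairB (bB W) (N * (q - 1))
      (slots (bB W) (N * (q - 1)) (grp (q - 1) (tf W q om nu x)))
      (slots (bB W) (N * (q - 1)) (grp (q - 1) (tf W q om nu y)))) =
      slots (bB W) (N * (2 * dB W - 1)) (grp (2 * dB W - 1) (co W x y)) := by
  unfold invB
  have hq1 := hQ.hq1
  have hD := one_le_dB W
  rw [pre2_eq hQ, postB_slots (bB W) n (q - 1) (2 * dB W - 1) (q ^ 4) nu om N _ (by omega)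
    (size_inv hQ hn) (m_pos hQ) (fun v i _ _ => pr_lt hQ x y v i)
    (conv_fits' hQ (by omega)), slots_grp, slots_grp]
  apply List.flatMap_congr
  intro v _
  apply H778.slots_congr
  intro j hj
  exact co_eq hQ x y v hj

theorem co_le (x y : ℕ → ℕ) (v j : ℕ) : co W x y v j ≤ dB W * 2 ^ (2 * gB W) :=
  conv_cut_le (fun i _ => dig_lt _ _ _ _) (fun i _ => dig_lt _ _ _ _) j

theorem co_lt (x y : ℕ → ℕ) (v j : ℕ) : co W x y v j < 2 ^ (gB W * 3) := by
  refine lt_of_le_of_lt (co_le hQ x y v j) ?_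
  have h1 := four_dB_le hQ.hW
  have h2 := lt_two_pow_gB W
  have h3 := one_le_dB W
  calc dB W * 2 ^ (2 * gB W) < 2 ^ gB W * 2 ^ (2 * gB W) :=
        Nat.mul_lt_mul_of_pos_right (by omega) (by positivity)
    _ = 2 ^ (gB W * 3) := by rw [← pow_add]; congr 1; ring

/-- The coefficients give the product. -/
theorem num_co {x y : ℕ → ℕ} {v : ℕ} (hx : x v < 2 ^ W) (hy : y v < 2 ^ W) :
    num (gB W) (2 * dB W - 1) (co W x y v) = x v * y v := by
  have hle : 2 ^ W ≤ 2 ^ (gB W * dB W) := by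
    apply Nat.pow_le_pow_right (by norm_num)
    rw [gB_mul_dB]
    omega
  have h := H778.num_mul (gB W) (dB W) (one_le_dB W) (H282.Bp.cut (dB W) (dg W x v))
    (H282.Bp.cut (dB W) (dg W y v)) (fun i hi => H282.Bp.cut_of_le hi _)
    (fun i hi => H282.Bp.cut_of_le hi _)
  rw [show num (gB W) (2 * dB W - 1) (co W x y v) = num (gB W) (2 * dB W - 1)
    (conv (H282.Bp.cut (dB W) (dg W x v)) (H282.Bp.cut (dB W) (dg W y v))) from rfl, ← h,
    num_congr (gB W) (dB W) (f' := dg W x v) (fun i hi => H282.Bp.cut_of_lt hi _),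
    num_congr (gB W) (dB W) (f' := dg W y v) (fun i hi => H282.Bp.cut_of_lt hi _)]
  rw [show dg W x v = dig (gB W) (dB W) (x v) from rfl,
    show dg W y v = dig (gB W) (dB W) (y v) from rfl, num_dig _ _ _ (hx.trans_le hle),
    num_dig _ _ _ (hy.trans_le hle)]

theorem cval_sum (x y : ℕ → ℕ) (v : ℕ) :
    cval (gB W) 0 (2 * dB W - 1) (co W x y v) + cval (gB W) 1 (2 * dB W - 1) (co W x y v) +
      cval (gB W) 2 (2 * dB W - 1) (co W x y v) = num (gB W) (2 * dB W - 1) (co W x y v) := by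
  unfold cval
  rw [num_mul_const, num_mul_const, num_mul_const, num_add, num_add]
  apply num_congr
  intro i _
  exact cdig_sum _ _ (co_lt hQ x y v i)

/-- The file of the products. -/
theorem sumB_eq {x y : ℕ → ℕ} (hx : ∀ i < N, x i < 2 ^ W) (hy : ∀ i < N, y i < 2 ^ W) :
    sumB W N (slots (bB W) (N * (2 * dB W - 1)) (grp (2 * dB W - 1) (co W x y))) =
      slots (2 * padB W + gB W + 2 * W) N fun v => x v * y v := by
  have hw : gB W * (2 * dB W - 1 + 2) = 2 * padB W + gB W + 2 * W := by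
    have h1 := one_le_dB W
    have h2 := gB_mul_dB W
    have h3 : 2 * dB W - 1 + 2 = 2 * dB W + 1 := by omega
    rw [h3]
    calc gB W * (2 * dB W + 1) = 2 * (gB W * dB W) + gB W := by ring
      _ = 2 * padB W + gB W + 2 * W := by rw [h2]; ring
  have hxy : ∀ v < N, x v * y v < 2 ^ (gB W * (2 * dB W - 1 + 2)) := by
    intro v hv
    rw [hw]
    calc x v * y v < 2 ^ W * 2 ^ W := Nat.mul_lt_mul'' (hx v hv) (hy v hv)
      _ = 2 ^ (2 * W) := by rw [← pow_add, two_mul]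
      _ ≤ 2 ^ (2 * padB W + gB W + 2 * W) := Nat.pow_le_pow_right (by norm_num) (by omega)
  have hs : ∀ v < N, cval (gB W) 0 (2 * dB W - 1) (co W x y v) +
      cval (gB W) 1 (2 * dB W - 1) (co W x y v) + cval (gB W) 2 (2 * dB W - 1) (co W x y v) =
      x v * y v := fun v hv => by rw [cval_sum hQ, num_co hQ (hx v hv) (hy v hv)]
  unfold sumB
  rw [carB_slots _ _ 0 _ _ (by norm_num) three_gB_le, carB_slots _ _ 1 _ _ (by norm_num)
    three_gB_le, carB_slots _ _ 2 _ _ (by norm_num) three_gB_le]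
  rw [addB_slots _ _ _ _ (fun u _ => cval_lt _ _ _ (by norm_num) _)
    (fun u _ => cval_lt _ _ _ (by norm_num) _)
    (fun u hu => by have := hs u hu; have := hxy u hu; omega)]
  rw [addB_slots _ _ _ _ (fun u hu => by have := hs u hu; have := hxy u hu; omega)
    (fun u _ => cval_lt _ _ _ (by norm_num) _)
    (fun u hu => by have := hs u hu; have := hxy u hu; omega)]
  rw [hw]
  apply H778.slots_congr
  exact hs

/-- The low halves of the products. -/
theorem prodB_eq (hn : 400 * N * W ≤ n) {x y : ℕ → ℕ} (hx : ∀ i < N, x i < 2 ^ W)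
    (hy : ∀ i < N, y i < 2 ^ W) :
    prodB W q om nu iv n N (padW (padB W) W N x) (padW (padB W) W N y) =
      slots (2 * W) N fun v => x v * y v % 2 ^ W := by
  unfold prodB
  rw [fwdB_eq hQ hn hx, fwdB_eq hQ hn hy, invB_eq hQ hn, sumB_eq hQ hx hy, trimB_slots]

/-- **The batch multiplication.** -/
theorem batchB_eq (hN : 1 ≤ N) (hn : 400 * N * W ≤ n) {p μ : ℕ} (hp : p < 2 ^ W) (hμ : μ < 2 ^ W)
    {x y : ℕ → ℕ} (hx : ∀ i < N, x i < 2 ^ W) (hy : ∀ i < N, y i < 2 ^ W) :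
    batchB W q om nu iv n N p μ (padW (padB W) W N x) (padW (padB W) W N y) =
      slots W N fun i => mmN W p μ (x i) (y i) := by
  have h1 : 2 * W * N ≤ n := by
    calc 2 * W * N = 2 * N * W := by ring
      _ ≤ 400 * N * W := Nat.mul_le_mul_right _ (Nat.mul_le_mul_right _ (by norm_num))
      _ ≤ n := hn
  have h2 : W ≤ n := by
    calc W ≤ 400 * N * W := Nat.le_mul_of_pos_left _ (by omega)
      _ ≤ n := hn
  have hmod : ∀ z, z % 2 ^ W < 2 ^ W := fun z => Nat.mod_lt _ (by positivity)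
  unfold batchB
  rw [prodB_eq hQ hn hx hy, lowB_eq n W N μ _ (fun v _ => hmod _) hμ h1 h2,
    highB_eq n W N p _ (fun v _ => hmod _) hp h1 h2]
  apply H778.slots_congr
  intro i _
  unfold mmN
  rw [mul_comm p, mul_comm μ]

end Main

end Vale.Agent.P338.R2.H293.Bp
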