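import Vale.Agent.P338.R2.H293.Bp.Batch

/-!
P338, stage 3: lengths of the files of the batch multiplication, bounds for the slots read by the
element passes.
-/

namespace Vale.Agent.P338.R2.H293.Bp

open H778 (val bits slots conv num)
open H525 (slotAt mulBits zeros)
open H525.Fp (tri mmN)
open H784.Bp
open H282.Bp (gB_ge lt_two_pow_gB gB_pos gB_mul_dB padB_le one_le_dB four_dB_le q_le m_le
  D_mul_lt m_pos one_lt_m two_lt_q)

/-! Lengths, in general. -/

theorem length_slotAt {W t N : ℕ} {z : List Bool} (hz : z.length = N * W) (ht : t < N) :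
    (slotAt W z t).length = W := by
  unfold slotAt
  rw [List.length_take, List.length_drop, hz]
  have : t * W + W ≤ N * W := by
    calc t * W + W = (t + 1) * W := by ring
      _ ≤ N * W := Nat.mul_le_mul_right _ ht
  omega

theorem length_slotAt' {W t : ℕ} {z : List Bool} (hz : (t + 1) * W ≤ z.length) :
    (slotAt W z t).length = W := by
  unfold slotAt
  rw [List.length_take, List.length_drop]
  have : (t + 1) * W = t * W + W := by ring
  omega

theorem length_padW (pad W N : ℕ) (x : ℕ → ℕ) : (padW pad W N x).length = N * (pad + W) := by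
  unfold padW
  apply H525.length_flatMap_const
  intro i _
  rw [List.length_append, H525.length_zeros, H778.length_bits]

theorem length_spreadB {g b M : ℕ} {z : List Bool} (hg : g ≤ b) (hz : z.length = M * g) :
    (spreadB g b M z).length = M * b := by
  unfold spreadB
  apply H525.length_flatMap_const
  intro i hi
  rw [List.length_append, H525.length_zeros, length_slotAt hz hi]
  omega

theorem length_rows (b P N : ℕ) (F : ℕ → ℕ → ℕ) :
    ((List.range N).flatMap fun v => (List.range P).flatMap fun i => bits b (F v i)).length =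
      N * P * b := by
  rw [mul_assoc]
  apply H525.length_flatMap_const
  intro v _
  apply H525.length_flatMap_const
  intro i _
  exact H778.length_bits _ _

theorem length_preB (b P R m r N : ℕ) (z : List Bool) :
    (preB b P R m r N z).length = N * (2 * P + R) * b := by
  unfold preB
  rw [mul_assoc]
  apply H525.length_flatMap_const
  intro v _
  rw [List.length_append, H525.length_zeros, H525.length_flatMap_const P b _
    (fun i _ => H778.length_bits _ _)]
  ring

theorem length_kerB (b P R m ri : ℕ) : (kerB b P R m ri).length = (P + R) * b := by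
  unfold kerB
  rw [H778.length_slots, mul_comm]

theorem length_postB (b P R m r N : ℕ) (z : List Bool) :
    (postB b P R m r N z).length = N * R * b := length_rows _ _ _ _

theorem length_pairB {b M : ℕ} {x y : List Bool} (hx : x.length = M * b) (hy : y.length = M * b) :
    (pairB b M x y).length = 2 * M * b := by
  unfold pairB
  rw [H525.length_flatMap_const M (2 * b)]
  · ring
  · intro t ht
    rw [List.length_append, length_slotAt hx ht, length_slotAt hy ht]
    ring

theorem length_pre2B (b P R m r iv N : ℕ) (z : List Bool) :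
    (pre2B b P R m r iv N z).length = N * (2 * P + R) * b := by
  unfold pre2B
  rw [mul_assoc]
  apply H525.length_flatMap_const
  intro v _
  rw [List.length_append, H525.length_zeros, H525.length_flatMap_const P b _
    (fun i _ => H778.length_bits _ _)]
  ring

theorem length_carB {g b v J N : ℕ} {z : List Bool} (hv : v ≤ 2) (hb : g * 3 ≤ b)
    (hz : z.length = N * J * b) : (carB g b v J N z).length = N * (g * (J + 2)) := by
  unfold carB
  apply H525.length_flatMap_const
  intro u hu
  rw [List.length_append, List.length_append, H525.length_zeros, H525.length_zeros,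
    H525.length_flatMap_const J g]
  · have : g * (2 - v) + g * v = g * 2 := by rw [← mul_add]; congr 1; omega
    have h2 : g * (J + 2) = J * g + g * 2 := by ring
    omega
  · intro j hj
    have h3 : g * (v + 1) ≤ b := by
      calc g * (v + 1) ≤ g * 3 := Nat.mul_le_mul_left _ (by omega)
        _ ≤ b := hb
    have h4 : g ≤ g * (v + 1) := Nat.le_mul_of_pos_right _ (by omega)
    rw [List.length_take, List.length_drop, length_slotAt hz (row_lt hu hj)]
    omega

theorem length_addB (x y : List Bool) : (addB x y).length = x.length := H778.length_bits _ _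

theorem length_trimB {U W N : ℕ} {z : List Bool} (hz : z.length = N * (U + 2 * W)) :
    (trimB U W N z).length = N * (2 * W) := by
  unfold trimB
  apply H525.length_flatMap_const
  intro v hv
  rw [List.length_append, H525.length_zeros, List.length_take, List.length_drop, hz]
  have : v * (U + 2 * W) + (U + 2 * W) ≤ N * (U + 2 * W) := by
    calc v * (U + 2 * W) + (U + 2 * W) = (v + 1) * (U + 2 * W) := by ring
      _ ≤ N * (U + 2 * W) := Nat.mul_le_mul_right _ hv
  omega

theorem length_lowB {W N n : ℕ} {z : List Bool} (hz : z.length = 2 * n) (hn : 2 * W * N ≤ n)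
    (hW : W ≤ n) : (lowB W N z).length = N * (2 * W) := by
  unfold lowB
  apply H525.length_flatMap_const
  intro v hv
  rw [List.length_append, H525.length_zeros, length_slotAt', two_mul]
  rw [hz]
  calc (2 * v + 2 + 1) * W ≤ (2 * N + 1) * W := Nat.mul_le_mul_right _ (by omega)
    _ = 2 * W * N + W := by ring
    _ ≤ 2 * n := by omega

theorem length_highB {W N n : ℕ} {z : List Bool} (hz : z.length = 2 * n) (hn : 2 * W * N ≤ n)
    (hW : W ≤ n) : (highB W N z).length = N * W := by
  unfold highB
  apply H525.length_flatMap_const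
  intro v hv
  apply length_slotAt'
  rw [hz]
  calc (2 * v + 1 + 1) * W ≤ (2 * N + 1) * W := Nat.mul_le_mul_right _ (by omega)
    _ = 2 * W * N + W := by ring
    _ ≤ 2 * n := by omega

theorem length_mulBits (n : ℕ) (x y : List Bool) : (mulBits n x y).length = 2 * n :=
  H778.length_bits _ _

/-! Lengths of the files of a piece. -/

section Piece

variable {W q om nu iv n N : ℕ} {z z' : List Bool}

theorem len_spread (hz : z.length = N * (padB W + W)) :
    (spreadB (gB W) (bB W) (N * dB W) z).length = N * dB W * bB W := by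
  apply length_spreadB (by have := three_gB_le (W := W); omega)
  rw [hz, add_comm, ← gB_mul_dB]
  ring

theorem len_fwdB : (fwdB W q om nu n N z).length = N * (q - 1) * bB W := length_postB _ _ _ _ _ _ _

theorem len_invB : (invB W q om nu iv n N z).length = N * (2 * dB W - 1) * bB W :=
  length_postB _ _ _ _ _ _ _

theorem block_eq (W : ℕ) : gB W * (2 * dB W - 1 + 2) = 2 * padB W + gB W + 2 * W := by
  have h1 := one_le_dB W
  have h2 := gB_mul_dB W
  have h3 : 2 * dB W - 1 + 2 = 2 * dB W + 1 := by omega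
  rw [h3]
  calc gB W * (2 * dB W + 1) = 2 * (gB W * dB W) + gB W := by ring
    _ = 2 * padB W + gB W + 2 * W := by rw [h2]; ring

theorem len_carB {v : ℕ} (hv : v ≤ 2) (hz : z.length = N * (2 * dB W - 1) * bB W) :
    (carB (gB W) (bB W) v (2 * dB W - 1) N z).length = N * (2 * padB W + gB W + 2 * W) := by
  rw [length_carB hv three_gB_le hz, block_eq]

theorem len_sumB (hz : z.length = N * (2 * dB W - 1) * bB W) :
    (sumB W N z).length = N * (2 * padB W + gB W + 2 * W) := by
  unfold sumB
  rw [length_addB, length_addB, len_carB (by norm_num) hz]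

theorem len_prodB : (prodB W q om nu iv n N z z').length = N * (2 * W) :=
  length_trimB (len_sumB len_invB)

variable (hQ : Prm W q om nu iv)

include hQ

theorem len_preB_le (hn : 400 * N * W ≤ n) :
    (preB (bB W) (dB W) (q - 1) (q ^ 4) om N z).length ≤ n := by
  rw [length_preB, mul_comm]
  exact size_fwd hQ hn

theorem len_pre2B_le (hn : 400 * N * W ≤ n) :
    (pre2B (bB W) (q - 1) (2 * dB W - 1) (q ^ 4) nu iv N z).length ≤ n := by
  rw [length_pre2B, mul_comm]
  exact size_inv hQ hn

theorem len_kerB_le (hN : 1 ≤ N) (hn : 400 * N * W ≤ n) (ri : ℕ) :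
    (kerB (bB W) (dB W) (q - 1) (q ^ 4) ri).length ≤ n := by
  rw [length_kerB]
  have h := size_fwd hQ hn
  refine le_trans ?_ h
  calc (dB W + (q - 1)) * bB W ≤ (1 * (2 * dB W + (q - 1))) * bB W :=
        Nat.mul_le_mul_right _ (by omega)
    _ ≤ (N * (2 * dB W + (q - 1))) * bB W := Nat.mul_le_mul_right _ (Nat.mul_le_mul_right _ hN)
    _ = bB W * (N * (2 * dB W + (q - 1))) := mul_comm _ _

theorem len_kerB2_le (hN : 1 ≤ N) (hn : 400 * N * W ≤ n) (ri : ℕ) :
    (kerB (bB W) (q - 1) (2 * dB W - 1) (q ^ 4) ri).length ≤ n := by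
  rw [length_kerB]
  have h := size_inv hQ hn
  refine le_trans ?_ h
  calc (q - 1 + (2 * dB W - 1)) * bB W ≤ (1 * (2 * (q - 1) + (2 * dB W - 1))) * bB W :=
        Nat.mul_le_mul_right _ (by omega)
    _ ≤ (N * (2 * (q - 1) + (2 * dB W - 1))) * bB W :=
        Nat.mul_le_mul_right _ (Nat.mul_le_mul_right _ hN)
    _ = bB W * (N * (2 * (q - 1) + (2 * dB W - 1))) := mul_comm _ _

/-- All files of the transforms have length at most `n`. -/
theorem len_fwd_le (hn : 400 * N * W ≤ n) {A : ℕ} (hA : A ≤ 10 * dB W) : N * A * bB W ≤ n := by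
  rw [mul_comm]
  exact size_le hQ hn hA

theorem len_pair_le (hn : 400 * N * W ≤ n) : 2 * (N * (q - 1)) * bB W ≤ n := by
  rw [show 2 * (N * (q - 1)) = N * (2 * (q - 1)) by ring]
  exact len_fwd_le hQ hn (by have := hQ.hq2; omega)

theorem len_block_le (hn : 400 * N * W ≤ n) : N * (2 * padB W + gB W + 2 * W) ≤ n := by
  refine le_trans ?_ hn
  have h1 := padB_le W
  have h2 := gB_le hQ.hW
  calc N * (2 * padB W + gB W + 2 * W) ≤ N * (400 * W) := Nat.mul_le_mul_left _ (by omega)
    _ = 400 * N * W := by ring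

omit hQ in
theorem len_word_le (hn : 400 * N * W ≤ n) : 2 * W * N ≤ n := by
  calc 2 * W * N = 2 * N * W := by ring
    _ ≤ 400 * N * W := Nat.mul_le_mul_right _ (Nat.mul_le_mul_right _ (by norm_num))
    _ ≤ n := hn

omit hQ in
theorem word_le (hN : 1 ≤ N) (hn : 400 * N * W ≤ n) : W ≤ n := by
  calc W ≤ 400 * N * W := Nat.le_mul_of_pos_left _ (by omega)
    _ ≤ n := hn

omit hQ in
theorem len_prodB_le (hn : 400 * N * W ≤ n) :
    (prodB W q om nu iv n N z z').length ≤ n := by
  rw [len_prodB]
  calc N * (2 * W) = 2 * W * N := by ring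
    _ ≤ n := len_word_le hn

omit hQ in
theorem len_lowB_le (hN : 1 ≤ N) (hn : 400 * N * W ≤ n) (hz : z.length = 2 * n) :
    (lowB W N z).length ≤ n := by
  rw [length_lowB hz (len_word_le hn) (word_le hN hn)]
  calc N * (2 * W) = 2 * W * N := by ring
    _ ≤ n := len_word_le hn

/-! Bounds for the slots read by the element passes. -/

/-- First pass, forward. -/
theorem read_pre {x : ℕ → ℕ} (hx : ∀ i < N, x i < 2 ^ W) (t : ℕ) (ht : t < N * dB W) :
    val (slotAt (bB W) (spreadB (gB W) (bB W) (N * dB W) (padW (padB W) W N x)) t) < q ^ 4 := by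
  rw [spread_eq hQ hx, H525.slotAt_slots _ _ _ _ ht, H778.val_bits_of_lt]
  · exact dig_lt_m hQ
  · exact lt_trans (dig_lt_m hQ) (m_lt_two_pow hQ)

/-- Last pass, forward. -/
theorem read_post (hn : 400 * N * W ≤ n) {x : ℕ → ℕ} (hx : ∀ i < N, x i < 2 ^ W) (i : ℕ)
    (hi : i < N) (k : ℕ) (hk : k < q - 1) :
    val (slotAt (bB W) (mulBits n (preB (bB W) (dB W) (q - 1) (q ^ 4) om N (spreadB (gB W) (bB W)
      (N * dB W) (padW (padB W) W N x))) (kerB (bB W) (dB W) (q - 1) (q ^ 4) nu))
      (i * (2 * dB W + (q - 1)) + dB W + k)) * q ^ 4 * q ^ 4 < 2 ^ bB W := by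
  have hq1 := hQ.hq1
  rw [pre_eq hQ hx]
  have h := postB_read (bB W) n (dB W) (q - 1) (q ^ 4) nu N
    (fun v i => preN (q ^ 4) om (dg W x v i) i) (one_le_dB W)
    (size_fwd hQ hn) (m_pos hQ) (fun v i _ _ => preN_lt hQ _ _ _)
    (conv_fits' hQ (by omega)) i k hi hk
  rw [mul_assoc]
  exact lt_of_le_of_lt (Nat.mul_le_mul_right _ h) (conv_fits hQ (by omega))

/-- Product and first pass, backward. -/
theorem read_pre2 (hn : 400 * N * W ≤ n) {x y : ℕ → ℕ} (hx : ∀ i < N, x i < 2 ^ W)
    (hy : ∀ i < N, y i < 2 ^ W) (t : ℕ) (ht : t < 2 * (N * (q - 1))) :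
    val (slotAt (bB W) (pairB (bB W) (N * (q - 1)) (fwdB W q om nu n N (padW (padB W) W N x))
      (fwdB W q om nu n N (padW (padB W) W N y))) t) < q ^ 4 := by
  rw [fwdB_eq hQ hn hx, fwdB_eq hQ hn hy, pairB_slots, H525.slotAt_slots _ _ _ _ (by omega)]
  have h : grp 2 (fun t s => if s = 0 then grp (q - 1) (tf W q om nu x) t else
      grp (q - 1) (tf W q om nu y) t) t < q ^ 4 := by
    show (if t % 2 = 0 then grp (q - 1) (tf W q om nu x) (t / 2) else
      grp (q - 1) (tf W q om nu y) (t / 2)) < q ^ 4
    split_ifs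
    · exact tf_lt hQ _ _ _
    · exact tf_lt hQ _ _ _
  rw [H778.val_bits_of_lt (h.trans (m_lt_two_pow hQ))]
  exact h

/-- Last pass, backward. -/
theorem read_post2 (hn : 400 * N * W ≤ n) {x y : ℕ → ℕ} (hx : ∀ i < N, x i < 2 ^ W)
    (hy : ∀ i < N, y i < 2 ^ W) (i : ℕ) (hi : i < N) (k : ℕ) (hk : k < 2 * dB W - 1) :
    val (slotAt (bB W) (mulBits n (pre2B (bB W) (q - 1) (2 * dB W - 1) (q ^ 4) nu iv N
      (pairB (bB W) (N * (q - 1)) (fwdB W q om nu n N (padW (padB W) W N x))
        (fwdB W q om nu n N (padW (padB W) W N y))))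
      (kerB (bB W) (q - 1) (2 * dB W - 1) (q ^ 4) om))
      (i * (2 * (q - 1) + (2 * dB W - 1)) + (q - 1) + k)) * q ^ 4 * q ^ 4 < 2 ^ bB W := by
  have hq1 := hQ.hq1
  have hD := one_le_dB W
  rw [fwdB_eq hQ hn hx, fwdB_eq hQ hn hy, pre2_eq hQ]
  have h := postB_read (bB W) n (q - 1) (2 * dB W - 1) (q ^ 4) om N
    (pr W q om nu iv x y) (by omega)
    (size_inv hQ hn) (m_pos hQ) (fun v i _ _ => pr_lt hQ x y v i)
    (conv_fits' hQ (by omega)) i k hi hk
  rw [mul_assoc]
  exact lt_of_le_of_lt (Nat.mul_le_mul_right _ h) (conv_fits hQ (by omega))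

/-- The conditions on `q ^ 4` needed by the element passes. -/
theorem mum_lt : 2 ^ bB W / q ^ 4 + 1 < 2 ^ bB W := by
  have h1 := one_lt_m hQ
  have h2 := m_lt_two_pow hQ
  have h3 : 2 ^ bB W / q ^ 4 ≤ 2 ^ bB W / 2 := Nat.div_le_div_left h1 (by norm_num)
  omega

end Piece

end Vale.Agent.P338.R2.H293.Bp
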