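import Vale.Agent.P338.R2.H784.Bp.Spec

/-!
P338, stage 3: digits of padded words, products of a file of blocks by a kernel.
-/

namespace Vale.Agent.P338.R2.H293.Bp

open H778 (val bits slots conv num)
open H525 (slotAt mulBits zeros)
open H525.Fp (tri mmN)
open H784.Bp

/-- The digit number `i` (most significant first) of a word of `D` digits of `g` bits. -/
def dig (g D z i : ℕ) : ℕ := z / 2 ^ (g * (D - 1 - i)) % 2 ^ g

theorem dig_lt (g D z i : ℕ) : dig g D z i < 2 ^ g := Nat.mod_lt _ (by positivity)

theorem bits_congr_mod {w a c : ℕ} (h : a % 2 ^ w = c % 2 ^ w) : bits w a = bits w c := by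
  rw [← H778.bits_mod w a, h, H778.bits_mod]

theorem bits_eq_slots (g D z : ℕ) : bits (g * D) z = slots g D (dig g D z) := by
  induction D generalizing z with
  | zero => rfl
  | succ D ih =>
    rw [Nat.mul_succ, H778.bits_add, ih, H778.slots_succ]
    congr 1
    · apply H778.slots_congr
      intro i hi
      unfold dig
      rw [Nat.div_div_eq_div_mul, ← pow_add]
      congr 3
      have : D + 1 - 1 - i = (D - 1 - i) + 1 := by omega
      rw [this]
      ring
    · apply bits_congr_mod
      unfold dig
      simp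

theorem num_dig (g D z : ℕ) (hz : z < 2 ^ (g * D)) : num g D (dig g D z) = z := by
  rw [← H778.val_slots g D _ (fun i _ => dig_lt g D z i), ← bits_eq_slots, H778.val_bits_of_lt hz]

theorem zeros_append_bits (a w z : ℕ) (hz : z < 2 ^ w) : zeros a ++ bits w z = bits (a + w) z := by
  have := H778.bits_add' a w 0 z hz
  rw [zero_mul, zero_add] at this
  rw [this, ← H525.bits_zero']

theorem slotAt_bits_flatMap {α : Type*} (W N : ℕ) (F : ℕ → List α) (hF : ∀ i < N, (F i).length = W)
    (t : ℕ) (ht : t < N) : (((List.range N).flatMap F).drop (t * W)).take W = F t := by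
  induction N with
  | zero => omega
  | succ N ih =>
    have hlen := H525.length_flatMap_const N W F (fun i hi => hF i (by omega))
    rw [List.range_succ, List.flatMap_append]
    rcases Nat.lt_or_ge t N with h | h
    · have h1 : t * W + W ≤ N * W := by
        calc t * W + W = (t + 1) * W := by ring
          _ ≤ N * W := Nat.mul_le_mul_right _ h
      rw [List.drop_append_of_le_length (by rw [hlen]; omega), List.take_append_of_le_length
        (by rw [List.length_drop, hlen]; omega), ih (fun i hi => hF i (by omega)) h]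
    · have : t = N := by omega
      subst this
      rw [← hlen, List.drop_left]
      simp only [List.flatMap_cons, List.flatMap_nil, List.append_nil]
      exact List.take_of_length_le (by rw [hF t (by omega)])

theorem slotAt_flatMap (W N : ℕ) (F : ℕ → List Bool) (hF : ∀ i < N, (F i).length = W)
    (t : ℕ) (ht : t < N) : slotAt W ((List.range N).flatMap F) t = F t :=
  slotAt_bits_flatMap W N F hF t ht

/-! Padded words. -/

theorem padW_eq (pad W N : ℕ) (x : ℕ → ℕ) (hx : ∀ i < N, x i < 2 ^ W) :
    padW pad W N x = slots (pad + W) N x := by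
  unfold padW slots
  apply List.flatMap_congr
  intro i hi
  rw [zeros_append_bits _ _ _ (hx i (List.mem_range.1 hi))]

theorem slots_regroup (g D N : ℕ) (x : ℕ → ℕ) :
    slots (g * D) N x = slots g (N * D) (fun t => dig g D (x (t / D)) (t % D)) := by
  rw [H778.slots_mul]
  unfold slots
  apply List.flatMap_congr
  intro i _
  rw [bits_eq_slots]
  apply H778.slots_congr
  intro j hj
  have h1 : (i * D + j) / D = i := by
    rw [mul_comm, Nat.mul_add_div (by omega), Nat.div_eq_of_lt hj, add_zero]
  have h2 : (i * D + j) % D = j := by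
    rw [mul_comm, Nat.mul_add_mod, Nat.mod_eq_of_lt hj]
  rw [h1, h2]

theorem spreadB_slots (g b M : ℕ) (hgb : g ≤ b) (f : ℕ → ℕ) (hf : ∀ i < M, f i < 2 ^ g) :
    spreadB g b M (slots g M f) = slots b M f := by
  unfold spreadB
  conv_rhs => unfold slots
  apply List.flatMap_congr
  intro i hi
  rw [List.mem_range] at hi
  rw [H525.slotAt_slots _ _ _ _ hi, zeros_append_bits _ _ _ (hf i hi)]
  congr 1
  omega

/-! Products of blocks by a kernel. -/

/-- `N` blocks of length `B`; the first `P` entries of the block `v` are `F v i`. -/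
def blk (P B N : ℕ) (F : ℕ → ℕ → ℕ) (t : ℕ) : ℕ :=
  if t < N * B ∧ t % B < P then F (t / B) (t % B) else 0

/-- The kernel, cut off. -/
def cut (Q : ℕ) (k : ℕ → ℕ) (u : ℕ) : ℕ := if u < Q then k u else 0

theorem slots_cut (b Q : ℕ) (k : ℕ → ℕ) : slots b Q (cut Q k) = slots b Q k := by
  apply H778.slots_congr
  intro i hi
  rw [cut, if_pos hi]

theorem zeros_eq_slots (n b : ℕ) : zeros (n * b) = slots b n (fun _ => 0) := by
  induction n with
  | zero => simp [zeros]
  | succ n ih =>
    rw [H778.slots_succ, ← ih, H525.bits_zero', H525.zeros_append, Nat.succ_mul]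

theorem blk_slots (b P R N : ℕ) (F : ℕ → ℕ → ℕ) :
    ((List.range N).flatMap fun v => slots b P (F v) ++ zeros ((P + R) * b)) =
      slots b (N * (2 * P + R)) (blk P (2 * P + R) N F) := by
  rw [H778.slots_mul]
  apply List.flatMap_congr
  intro v hv
  rw [List.mem_range] at hv
  rw [zeros_eq_slots]
  have e : 2 * P + R = P + (P + R) := by ring
  have key : ∀ j, j < 2 * P + R → v * (2 * P + R) + j < N * (2 * P + R) ∧
      (v * (2 * P + R) + j) % (2 * P + R) = j ∧ (v * (2 * P + R) + j) / (2 * P + R) = v := by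
    intro j hj
    refine ⟨?_, ?_, ?_⟩
    · calc v * (2 * P + R) + j < v * (2 * P + R) + (2 * P + R) := by omega
        _ = (v + 1) * (2 * P + R) := by ring
        _ ≤ N * (2 * P + R) := Nat.mul_le_mul_right _ hv
    · rw [mul_comm, Nat.mul_add_mod, Nat.mod_eq_of_lt hj]
    · rw [mul_comm, Nat.mul_add_div (by omega), Nat.div_eq_of_lt hj, add_zero]
  conv_rhs => rw [show slots b (2 * P + R) (fun j => blk P (2 * P + R) N F
    (v * (2 * P + R) + j)) = slots b (P + (P + R)) (fun j => blk P (2 * P + R) N F
    (v * (2 * P + R) + j)) by rw [← e]]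
  rw [H778.slots_add b P (P + R) (fun j => blk P (2 * P + R) N F (v * (2 * P + R) + j))]
  congr 1
  · apply H778.slots_congr
    intro j hj
    obtain ⟨h1, h2, h3⟩ := key j (by omega)
    rw [blk, if_pos ⟨h1, by omega⟩, h2, h3]
  · apply H778.slots_congr
    intro j hj
    obtain ⟨h1, h2, h3⟩ := key (P + j) (by omega)
    rw [blk, if_neg (by omega)]

theorem conv_blk (P R N : ℕ) (F : ℕ → ℕ → ℕ) (kap : ℕ → ℕ) (v k : ℕ) (hv : v < N) (hk : k < R) :
    conv (blk P (2 * P + R) N F) (cut (P + R) kap) (v * (2 * P + R) + P + k - 1) =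
      ∑ i ∈ Finset.range P, F v i * kap (k + (P - 1) - i) := by
  rcases Nat.eq_zero_or_pos P with hP | hP
  · subst hP
    unfold conv
    rw [Finset.range_zero, Finset.sum_empty]
    apply Finset.sum_eq_zero
    intro i _
    rw [blk, if_neg (by omega), zero_mul]
  have hc : v * (2 * P + R) + P + k - 1 + 1 = v * (2 * P + R) + (P + k) := by omega
  unfold conv
  rw [hc, Finset.sum_range_add, Finset.sum_range_add]
  have h1 : ∑ i ∈ Finset.range (v * (2 * P + R)), blk P (2 * P + R) N F i *
      cut (P + R) kap (v * (2 * P + R) + P + k - 1 - i) = 0 := by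
    apply Finset.sum_eq_zero
    intro i hi
    rw [Finset.mem_range] at hi
    by_cases h : v * (2 * P + R) + P + k - 1 - i < P + R
    · have : ¬ (i < N * (2 * P + R) ∧ i % (2 * P + R) < P) := by
        rintro ⟨_, h3⟩
        have h4 := Nat.div_add_mod i (2 * P + R)
        have h5 : i / (2 * P + R) < v := by
          rw [Nat.div_lt_iff_lt_mul (by omega)]; exact hi
        have h6 : (2 * P + R) * (i / (2 * P + R)) + (2 * P + R) ≤ v * (2 * P + R) := by
          calc (2 * P + R) * (i / (2 * P + R)) + (2 * P + R) =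
              (i / (2 * P + R) + 1) * (2 * P + R) := by ring
            _ ≤ v * (2 * P + R) := Nat.mul_le_mul_right _ h5
        omega
      rw [blk, if_neg this, zero_mul]
    · rw [cut, if_neg h, mul_zero]
  have key : ∀ j, j < 2 * P + R → v * (2 * P + R) + j < N * (2 * P + R) ∧
      (v * (2 * P + R) + j) % (2 * P + R) = j ∧ (v * (2 * P + R) + j) / (2 * P + R) = v := by
    intro j hj
    refine ⟨?_, ?_, ?_⟩
    · calc v * (2 * P + R) + j < v * (2 * P + R) + (2 * P + R) := by omega
        _ = (v + 1) * (2 * P + R) := by ring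
        _ ≤ N * (2 * P + R) := Nat.mul_le_mul_right _ hv
    · rw [mul_comm, Nat.mul_add_mod, Nat.mod_eq_of_lt hj]
    · rw [mul_comm, Nat.mul_add_div (by omega), Nat.div_eq_of_lt hj, add_zero]
  have h2 : ∑ x ∈ Finset.range k, blk P (2 * P + R) N F (v * (2 * P + R) + (P + x)) *
      cut (P + R) kap (v * (2 * P + R) + P + k - 1 - (v * (2 * P + R) + (P + x))) = 0 := by
    apply Finset.sum_eq_zero
    intro j hj
    rw [Finset.mem_range] at hj
    obtain ⟨_, h2, _⟩ := key (P + j) (by omega)
    rw [blk, if_neg (by omega), zero_mul]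
  rw [h1, h2, zero_add, add_zero]
  apply Finset.sum_congr rfl
  intro i hi
  rw [Finset.mem_range] at hi
  obtain ⟨h3, h4, h5⟩ := key i (by omega)
  rw [blk, if_pos ⟨h3, by omega⟩, h4, h5, cut, if_pos (by omega)]
  congr 2
  omega

theorem conv_le (Q m1 m2 : ℕ) (f k : ℕ → ℕ) (hf : ∀ i, f i ≤ m1) (hk : ∀ i < Q, k i ≤ m2)
    (c : ℕ) : conv f (cut Q k) c ≤ Q * (m1 * m2) := by
  unfold conv
  rw [← Finset.sum_range_reflect]
  have h1 : ∀ j ∈ Finset.range (c + 1), f (c + 1 - 1 - j) * cut Q k (c - (c + 1 - 1 - j)) ≤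
      if j < Q then m1 * m2 else 0 := by
    intro j hj
    rw [Finset.mem_range] at hj
    have : c - (c + 1 - 1 - j) = j := by omega
    rw [this, cut]
    split_ifs with h
    · exact Nat.mul_le_mul (hf _) (hk _ h)
    · simp
  refine (Finset.sum_le_sum h1).trans ?_
  rw [← Finset.sum_filter, Finset.sum_const, smul_eq_mul]
  apply Nat.mul_le_mul_right
  calc (Finset.filter (fun j => j < Q) (Finset.range (c + 1))).card
      ≤ (Finset.range Q).card := by
        apply Finset.card_le_card
        intro j hj
        simp only [Finset.mem_filter, Finset.mem_range] at hj ⊢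
        exact hj.2
    _ = Q := Finset.card_range Q

/-- **The product of a file of blocks by a kernel.** -/
theorem slotAt_blocks (b n P R N : ℕ) (F : ℕ → ℕ → ℕ) (kap : ℕ → ℕ) (m : ℕ)
    (hP : 1 ≤ P) (hn : b * (N * (2 * P + R)) ≤ n)
    (hF : ∀ v i, v < N → i < P → F v i < m) (hkap : ∀ u, u < P + R → kap u < m)
    (hm : (P + R) * (m * m) < 2 ^ b) (v k : ℕ) (hv : v < N) (hk : k < R) :
    slotAt b (mulBits n (slots b (N * (2 * P + R)) (blk P (2 * P + R) N F))
      (slots b (P + R) kap)) (v * (2 * P + R) + P + k) =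
      bits b (∑ i ∈ Finset.range P, F v i * kap (k + (P - 1) - i)) := by
  have hm1 : 1 ≤ m := by
    have := hF v 0 hv hP
    omega
  have hmb : m < 2 ^ b := by
    calc m = 1 * (m * 1) := by ring
      _ ≤ (P + R) * (m * m) := Nat.mul_le_mul (by omega) (Nat.mul_le_mul_left _ hm1)
      _ < 2 ^ b := hm
  have hFb : ∀ i, blk P (2 * P + R) N F i ≤ m := by
    intro i
    unfold blk
    split_ifs with h
    · apply (hF _ _ _ h.2).le
      rw [Nat.div_lt_iff_lt_mul (by omega)]
      exact h.1
    · omega
  have hkb : ∀ i, cut (P + R) kap i ≤ m := by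
    intro i
    unfold cut
    split_ifs with h
    · exact (hkap i h).le
    · omega
  have hNB : N * (2 * P + R) ≥ P + R := by
    calc P + R ≤ 1 * (2 * P + R) := by omega
      _ ≤ N * (2 * P + R) := Nat.mul_le_mul_right _ (by omega)
  have hNv : v * (2 * P + R) + (2 * P + R) ≤ N * (2 * P + R) := by
    calc v * (2 * P + R) + (2 * P + R) = (v + 1) * (2 * P + R) := by ring
      _ ≤ N * (2 * P + R) := Nat.mul_le_mul_right _ hv
  have h := H525.slotAt_mulBits b n (N * (2 * P + R)) (blk P (2 * P + R) N F)
    (cut (P + R) kap) (N * (2 * P + R)) (P + R) (by omega) le_rfl hNB hn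
    (fun i hi => by rw [blk, if_neg (by omega)])
    (fun i hi => by rw [cut, if_neg (by omega)])
    (fun i => lt_of_le_of_lt (hFb i) hmb)
    (fun i => lt_of_le_of_lt (hkb i) hmb)
    (fun c => lt_of_le_of_lt (conv_le (P + R) m m _ _ hFb (fun i hi => (hkap i hi).le) c) hm)
    (v * (2 * P + R) + P + k - 1) (by omega)
  rw [slots_cut, conv_blk P R N F kap v k hv hk] at h
  rw [← h]
  congr 1
  omega

end Vale.Agent.P338.R2.H293.Bp
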