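import Vale.Agent.P338.R2.H293.Bp.Blocks

/-!
P338, stage 3: the passes of the batch multiplication on files of slots.
-/

namespace Vale.Agent.P338.R2.H293.Bp

open H778 (val bits slots conv num)
open H525 (slotAt mulBits zeros)
open H525.Fp (tri mmN)
open H784.Bp

/-- Rows of length `P`. -/
def grp (P : ℕ) (X : ℕ → ℕ → ℕ) (t : ℕ) : ℕ := X (t / P) (t % P)

theorem grp_apply (P : ℕ) (X : ℕ → ℕ → ℕ) (v i : ℕ) (hi : i < P) :
    grp P X (v * P + i) = X v i := by
  unfold grp
  have h1 : (v * P + i) / P = v := by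
    rw [mul_comm, Nat.mul_add_div (by omega), Nat.div_eq_of_lt hi, add_zero]
  have h2 : (v * P + i) % P = i := by
    rw [mul_comm, Nat.mul_add_mod, Nat.mod_eq_of_lt hi]
  rw [h1, h2]

theorem slots_grp (b N P : ℕ) (X : ℕ → ℕ → ℕ) :
    slots b (N * P) (grp P X) = (List.range N).flatMap fun v => slots b P (X v) := by
  rw [H778.slots_mul]
  apply List.flatMap_congr
  intro v _
  apply H778.slots_congr
  intro j hj
  exact grp_apply P X v j hj

theorem row_lt {v N i P : ℕ} (hv : v < N) (hi : i < P) : v * P + i < N * P := by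
  calc v * P + i < v * P + P := by omega
    _ = (v + 1) * P := by ring
    _ ≤ N * P := Nat.mul_le_mul_right _ hv

theorem padW_grp (g D pad W N : ℕ) (hgD : g * D = pad + W) (x : ℕ → ℕ)
    (hx : ∀ i < N, x i < 2 ^ W) :
    padW pad W N x = slots g (N * D) (grp D fun v i => dig g D (x v) i) := by
  rw [padW_eq _ _ _ _ hx, ← hgD, slots_regroup]
  rfl

theorem preB_slots (b P R m r N : ℕ) (X : ℕ → ℕ → ℕ) (hX : ∀ v i, v < N → i < P → X v i < 2 ^ b) :
    preB b P R m r N (slots b (N * P) (grp P X)) =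
      slots b (N * (2 * P + R)) (blk P (2 * P + R) N fun v i => preN m r (X v i) i) := by
  unfold preB
  rw [← blk_slots]
  apply List.flatMap_congr
  intro v hv
  rw [List.mem_range] at hv
  congr 1
  unfold slots
  apply List.flatMap_congr
  intro i hi
  rw [List.mem_range] at hi
  have := H525.slotAt_slots b (N * P) (grp P X) (v * P + i) (row_lt hv hi)
  rw [show (List.flatMap (fun i => bits b (grp P X i)) (List.range (N * P))) =
    slots b (N * P) (grp P X) from rfl, this, grp_apply P X v i hi,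
    H778.val_bits_of_lt (hX v i hv hi)]

theorem postB_slots (b n P R m r ri N : ℕ) (F : ℕ → ℕ → ℕ)
    (hP : 1 ≤ P) (hn : b * (N * (2 * P + R)) ≤ n) (hm0 : 0 < m)
    (hF : ∀ v i, v < N → i < P → F v i < m)
    (hm : (P + R) * (m * m) < 2 ^ b) :
    postB b P R m r N (mulBits n (slots b (N * (2 * P + R)) (blk P (2 * P + R) N F))
      (kerB b P R m ri)) = slots b (N * R) (grp R fun v k => cztN P m r ri (F v) k) := by
  rw [slots_grp]
  unfold postB
  apply List.flatMap_congr
  intro v hv
  rw [List.mem_range] at hv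
  unfold slots
  apply List.flatMap_congr
  intro k hk
  rw [List.mem_range] at hk
  have h1 := slotAt_blocks b n P R N F (kerN P m ri) m hP hn hF
    (fun u _ => Nat.mod_lt _ hm0) hm v k hv hk
  have h2 : ∑ i ∈ Finset.range P, F v i * kerN P m ri (k + (P - 1) - i) < 2 ^ b := by
    refine lt_of_le_of_lt ?_ hm
    calc ∑ i ∈ Finset.range P, F v i * kerN P m ri (k + (P - 1) - i)
        ≤ ∑ _i ∈ Finset.range P, m * m := by
          apply Finset.sum_le_sum
          intro i hi
          rw [Finset.mem_range] at hi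
          exact Nat.mul_le_mul (hF v i hv hi).le (Nat.mod_lt _ hm0).le
      _ = P * (m * m) := by rw [Finset.sum_const, Finset.card_range, smul_eq_mul]
      _ ≤ (P + R) * (m * m) := Nat.mul_le_mul_right _ (by omega)
  rw [show (List.flatMap (fun i => bits b (blk P (2 * P + R) N F i))
    (List.range (N * (2 * P + R)))) = slots b (N * (2 * P + R)) (blk P (2 * P + R) N F) from rfl,
    show kerB b P R m ri = slots b (P + R) (kerN P m ri) from rfl, h1,
    H778.val_bits_of_lt h2]
  rfl

/-- The slots read by the last pass are small. -/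
theorem postB_read (b n P R m ri N : ℕ) (F : ℕ → ℕ → ℕ)
    (hP : 1 ≤ P) (hn : b * (N * (2 * P + R)) ≤ n) (hm0 : 0 < m)
    (hF : ∀ v i, v < N → i < P → F v i < m)
    (hm : (P + R) * (m * m) < 2 ^ b) (v k : ℕ) (hv : v < N) (hk : k < R) :
    val (slotAt b (mulBits n (slots b (N * (2 * P + R)) (blk P (2 * P + R) N F))
      (kerB b P R m ri)) (v * (2 * P + R) + P + k)) ≤ (P + R) * (m * m) := by
  have h1 := slotAt_blocks b n P R N F (kerN P m ri) m hP hn hF
    (fun u _ => Nat.mod_lt _ hm0) hm v k hv hk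
  have h2 : ∑ i ∈ Finset.range P, F v i * kerN P m ri (k + (P - 1) - i) ≤ (P + R) * (m * m) := by
    calc ∑ i ∈ Finset.range P, F v i * kerN P m ri (k + (P - 1) - i)
        ≤ ∑ _i ∈ Finset.range P, m * m := by
          apply Finset.sum_le_sum
          intro i hi
          rw [Finset.mem_range] at hi
          exact Nat.mul_le_mul (hF v i hv hi).le (Nat.mod_lt _ hm0).le
      _ = P * (m * m) := by rw [Finset.sum_const, Finset.card_range, smul_eq_mul]
      _ ≤ (P + R) * (m * m) := Nat.mul_le_mul_right _ (by omega)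
  rw [show kerB b P R m ri = slots b (P + R) (kerN P m ri) from rfl, h1,
    H778.val_bits_of_lt (lt_of_le_of_lt h2 hm)]
  exact h2

theorem slots_two (b : ℕ) (f : ℕ → ℕ) : slots b 2 f = bits b (f 0) ++ bits b (f 1) := by
  rw [show (2 : ℕ) = 0 + 1 + 1 from rfl, H778.slots_succ, H778.slots_succ, H778.slots_zero,
    List.nil_append]

/-- The merged file. -/
theorem pairB_slots (b M : ℕ) (f f' : ℕ → ℕ) :
    pairB b M (slots b M f) (slots b M f') =
      slots b (M * 2) (grp 2 fun t s => if s = 0 then f t else f' t) := by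
  rw [slots_grp]
  unfold pairB
  apply List.flatMap_congr
  intro t ht
  rw [List.mem_range] at ht
  rw [H525.slotAt_slots _ _ _ _ ht, H525.slotAt_slots _ _ _ _ ht, slots_two, if_pos rfl,
    if_neg (by norm_num)]

theorem pre2B_slots (b P R m r iv N : ℕ) (X Y : ℕ → ℕ → ℕ)
    (hX : ∀ v i, v < N → i < P → X v i < 2 ^ b) (hY : ∀ v i, v < N → i < P → Y v i < 2 ^ b) :
    pre2B b P R m r iv N (pairB b (N * P) (slots b (N * P) (grp P X))
      (slots b (N * P) (grp P Y))) =
      slots b (N * (2 * P + R)) (blk P (2 * P + R) N fun v k => X v k * Y v k % m *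
        (iv * (r ^ tri (k + 1) % m) % m) % m) := by
  rw [pairB_slots]
  unfold pre2B
  rw [← blk_slots]
  apply List.flatMap_congr
  intro v hv
  rw [List.mem_range] at hv
  congr 1
  apply List.flatMap_congr
  intro k hk
  rw [List.mem_range] at hk
  have h0 := row_lt hv hk
  have e1 : 2 * (v * P + k) = (v * P + k) * 2 + 0 := by ring
  have e2 : 2 * (v * P + k) + 1 = (v * P + k) * 2 + 1 := by ring
  rw [e2, e1, H525.slotAt_slots _ _ _ _ (by omega), H525.slotAt_slots _ _ _ _ (by omega),
    grp_apply 2 _ _ _ (by norm_num), grp_apply 2 _ _ _ (by norm_num), if_pos rfl,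
    if_neg (by norm_num), grp_apply P X v k hk, grp_apply P Y v k hk,
    H778.val_bits_of_lt (hX v k hv hk), H778.val_bits_of_lt (hY v k hv hk)]

/-! Digits of coefficients. -/

theorem drop_bits (a c z : ℕ) : (bits (a + c) z).drop a = bits c z := by
  rw [H778.bits_add]
  have : (bits a (z / 2 ^ c)).length = a := H778.length_bits _ _
  conv_lhs => rw [← this]
  rw [List.drop_left' (by simp)]

theorem take_bits (a c z : ℕ) : (bits (a + c) z).take a = bits a (z / 2 ^ c) := by
  rw [H778.bits_add]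
  exact List.take_left' (H778.length_bits _ _)

theorem mid_bits (g b v z : ℕ) (h : g * (v + 1) ≤ b) :
    ((bits b z).drop (b - g * (v + 1))).take g = bits g (z / 2 ^ (g * v)) := by
  have e1 : b = (b - g * (v + 1)) + (g + g * v) := by
    have : g * (v + 1) = g + g * v := by ring
    omega
  conv_lhs => rw [show bits b z = bits ((b - g * (v + 1)) + (g + g * v)) z by rw [← e1]]
  rw [drop_bits, take_bits]

theorem num_mul_const (g J c : ℕ) (f : ℕ → ℕ) : num g J f * c = num g J fun j => f j * c := by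
  unfold num
  rw [Finset.sum_mul]
  apply Finset.sum_congr rfl
  intro i _
  ring

theorem num_add (g J : ℕ) (f f' : ℕ → ℕ) :
    num g J f + num g J f' = num g J fun j => f j + f' j := by
  unfold num
  rw [← Finset.sum_add_distrib]
  apply Finset.sum_congr rfl
  intro i _
  ring

theorem num_congr (g J : ℕ) {f f' : ℕ → ℕ} (h : ∀ i < J, f i = f' i) : num g J f = num g J f' := by
  unfold num
  apply Finset.sum_congr rfl
  intro i hi
  rw [h i (Finset.mem_range.1 hi)]

/-- The digit number `v` (least significant first) of `z`. -/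
def cdig (g v z : ℕ) : ℕ := z / 2 ^ (g * v) % 2 ^ g

theorem cdig_lt (g v z : ℕ) : cdig g v z < 2 ^ g := Nat.mod_lt _ (by positivity)

theorem cdig_sum (g z : ℕ) (hz : z < 2 ^ (g * 3)) :
    cdig g 0 z * 2 ^ (g * 0) + cdig g 1 z * 2 ^ (g * 1) + cdig g 2 z * 2 ^ (g * 2) = z := by
  unfold cdig
  simp only [mul_zero, pow_zero, Nat.div_one, mul_one]
  have h1 : z / 2 ^ g / 2 ^ g = z / 2 ^ (g * 2) := by
    rw [Nat.div_div_eq_div_mul, ← pow_add]
    congr 2
    ring
  have h2 : z / 2 ^ (g * 2) < 2 ^ g := by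
    rw [Nat.div_lt_iff_lt_mul (by positivity), ← pow_add]
    convert hz using 2
    ring
  rw [Nat.mod_eq_of_lt h2, ← h1]
  have h3 := Nat.div_add_mod z (2 ^ g)
  have h4 := Nat.div_add_mod (z / 2 ^ g) (2 ^ g)
  have h5 : 2 ^ (g * 2) = 2 ^ g * 2 ^ g := by rw [← pow_add]; congr 1; ring
  rw [h5]
  conv_rhs => rw [← h3, ← h4]
  ring

/-- The value of a block of `carB`. -/
def cval (g v J : ℕ) (Z : ℕ → ℕ) : ℕ := num g J (fun j => cdig g v (Z j)) * 2 ^ (g * v)

theorem cval_lt (g v J : ℕ) (hv : v ≤ 2) (Z : ℕ → ℕ) : cval g v J Z < 2 ^ (g * (J + 2)) := by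
  unfold cval
  have h1 := H778.num_lt g J (fun j => cdig g v (Z j)) (fun j _ => cdig_lt g v _)
  calc num g J (fun j => cdig g v (Z j)) * 2 ^ (g * v) < 2 ^ (g * J) * 2 ^ (g * v) :=
        Nat.mul_lt_mul_of_pos_right h1 (by positivity)
    _ = 2 ^ (g * J + g * v) := by rw [pow_add]
    _ ≤ 2 ^ (g * (J + 2)) := by
        apply Nat.pow_le_pow_right (by norm_num)
        have : g * v ≤ g * 2 := Nat.mul_le_mul_left _ hv
        have : g * (J + 2) = g * J + g * 2 := by ring
        omega

theorem carB_slots (g b v J N : ℕ) (hv : v ≤ 2) (hb : g * 3 ≤ b) (Z : ℕ → ℕ → ℕ) :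
    carB g b v J N (slots b (N * J) (grp J Z)) =
      slots (g * (J + 2)) N fun u => cval g v J (Z u) := by
  unfold carB
  conv_rhs => unfold slots
  apply List.flatMap_congr
  intro u hu
  rw [List.mem_range] at hu
  have h1 : ((List.range J).flatMap fun j =>
      ((slotAt b (slots b (N * J) (grp J Z)) (u * J + j)).drop (b - g * (v + 1))).take g) =
      slots g J fun j => cdig g v (Z u j) := by
    unfold slots
    apply List.flatMap_congr
    intro j hj
    rw [List.mem_range] at hj
    have := H525.slotAt_slots b (N * J) (grp J Z) (u * J + j) (row_lt hu hj)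
    have h3 : g * (v + 1) ≤ b := by
      calc g * (v + 1) ≤ g * 3 := Nat.mul_le_mul_left _ (by omega)
        _ ≤ b := hb
    rw [show (List.flatMap (fun i => bits b (grp J Z i)) (List.range (N * J))) =
      slots b (N * J) (grp J Z) from rfl, this, grp_apply J Z u j hj, mid_bits _ _ _ _ h3]
    apply bits_congr_mod
    unfold cdig
    rw [Nat.mod_mod]
  rw [h1, H778.slots_eq_bits g J _ (fun j _ => cdig_lt g v _)]
  have hlt := H778.num_lt g J (fun j => cdig g v (Z u j)) (fun j _ => cdig_lt g v _)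
  have e1 : g * (J + 2) = g * (2 - v) + (g * J + g * v) := by
    have : g * (2 - v) + g * v = g * 2 := by rw [← mul_add]; congr 1; omega
    have : g * (J + 2) = g * J + g * 2 := by ring
    omega
  have e2 : cval g v J (Z u) = 0 * 2 ^ (g * J + g * v) + cval g v J (Z u) := by ring
  have e3 : cval g v J (Z u) < 2 ^ (g * J + g * v) := by
    rw [pow_add]
    exact Nat.mul_lt_mul_of_pos_right hlt (by positivity)
  have e4 : bits (g * J + g * v) (cval g v J (Z u)) =
      bits (g * J) (num g J fun j => cdig g v (Z u j)) ++ zeros (g * v) := by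
    have := H778.bits_add' (g * J) (g * v) (num g J fun j => cdig g v (Z u j)) 0 (by positivity)
    rw [add_zero] at this
    rw [cval, this, H525.bits_zero']
  show _ = bits (g * (J + 2)) (cval g v J (Z u))
  rw [e1]
  conv_rhs => rw [e2]
  rw [H778.bits_add' _ _ _ _ e3, e4, H525.bits_zero', List.append_assoc]

theorem addB_slots (w N : ℕ) (A B : ℕ → ℕ) (hA : ∀ u < N, A u < 2 ^ w) (hB : ∀ u < N, B u < 2 ^ w)
    (hAB : ∀ u < N, A u + B u < 2 ^ w) :
    addB (slots w N A) (slots w N B) = slots w N fun u => A u + B u := by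
  unfold addB
  rw [H778.val_slots w N A hA, H778.val_slots w N B hB, num_add, H778.length_slots,
    H778.slots_eq_bits w N _ hAB]

theorem trimB_slots (U W N : ℕ) (S : ℕ → ℕ) :
    trimB U W N (slots (U + 2 * W) N S) = slots (2 * W) N fun v => S v % 2 ^ W := by
  unfold trimB
  conv_rhs => unfold slots
  apply List.flatMap_congr
  intro v hv
  rw [List.mem_range] at hv
  have h1 : ((slots (U + 2 * W) N S).drop (v * (U + 2 * W) + (U + W))).take W =
      (slotAt (U + 2 * W) (slots (U + 2 * W) N S) v).drop (U + W) := by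
    unfold slotAt
    rw [List.drop_take, List.drop_drop]
    congr 1
    omega
  rw [h1, H525.slotAt_slots _ _ _ _ hv, show U + 2 * W = (U + W) + W by ring, drop_bits]
  have h2 : S v % 2 ^ W < 2 ^ W := Nat.mod_lt _ (by positivity)
  rw [← H778.bits_mod W (S v), zeros_append_bits _ _ _ h2, two_mul]

/-! Products by one word. -/

theorem mulBits_word (n W N c : ℕ) (a : ℕ → ℕ) (ha : ∀ v < N, a v < 2 ^ W) (hc : c < 2 ^ W)
    (hn : 2 * W * N ≤ n) (hW : W ≤ n) :
    mulBits n (slots (2 * W) N a) (bits W c) = bits W 0 ++ (slots (2 * W) N (fun v => a v * c) ++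
      zeros (2 * n - (W + 2 * W * N))) := by
  have ha2 : ∀ v < N, a v < 2 ^ (2 * W) := fun v hv =>
    lt_of_lt_of_le (ha v hv) (Nat.pow_le_pow_right (by norm_num) (by omega))
  have hac : ∀ v < N, a v * c < 2 ^ (2 * W) := fun v hv => by
    rw [two_mul, pow_add]
    exact Nat.mul_lt_mul'' (ha v hv) hc
  rw [mulBits, H525.val_padTo, H525.val_padTo, H778.length_slots, H778.length_bits,
    H778.val_slots _ _ _ ha2, H778.val_bits_of_lt hc]
  have e1 : num (2 * W) N a * 2 ^ (n - 2 * W * N) * (c * 2 ^ (n - W)) =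
      num (2 * W) N (fun v => a v * c) * 2 ^ (2 * n - (W + 2 * W * N)) + 0 := by
    rw [← num_mul_const, show 2 * n - (W + 2 * W * N) = (n - 2 * W * N) + (n - W) by omega,
      pow_add]
    ring
  have e2 : 2 * n = (W + 2 * W * N) + (2 * n - (W + 2 * W * N)) := by omega
  conv_lhs => rw [e1, show bits (2 * n) = bits ((W + 2 * W * N) + (2 * n - (W + 2 * W * N))) by
    rw [← e2]]
  rw [H778.bits_add' _ _ _ _ (by positivity), ← H525.bits_zero' (2 * n - (W + 2 * W * N))]
  have h3 := H778.bits_add' W (2 * W * N) 0 _ (H778.num_lt (2 * W) N _ hac)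
  rw [zero_mul, zero_add] at h3
  rw [h3, ← H778.slots_eq_bits (2 * W) N _ hac, List.append_assoc]

theorem slots_halves (W N : ℕ) (s : ℕ → ℕ) :
    slots (2 * W) N s = slots W (N * 2) (grp 2 fun v j => if j = 0 then s v / 2 ^ W else s v) := by
  rw [slots_grp]
  conv_lhs => unfold slots
  apply List.flatMap_congr
  intro v _
  rw [two_mul, H778.bits_add, slots_two, if_pos rfl, if_neg (by norm_num)]

theorem slotAt_word (n W N c : ℕ) (a : ℕ → ℕ) (ha : ∀ v < N, a v < 2 ^ W) (hc : c < 2 ^ W)
    (hn : 2 * W * N ≤ n) (hW : W ≤ n) (v j : ℕ) (hv : v < N) (hj : j < 2) :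
    slotAt W (mulBits n (slots (2 * W) N a) (bits W c)) (2 * v + j + 1) =
      bits W (if j = 0 then a v * c / 2 ^ W else a v * c) := by
  rw [mulBits_word n W N c a ha hc hn hW, H525.slotAt_cons _ _ _ _ (H778.length_bits _ _),
    H525.slotAt_append_left, slots_halves, H525.slotAt_slots _ _ _ _ (by omega),
    show 2 * v + j = v * 2 + j by ring, grp_apply 2 _ _ _ hj]
  rw [H778.length_slots]
  have : (2 * v + j + 1) * W ≤ (N * 2) * W := Nat.mul_le_mul_right _ (by omega)
  calc (2 * v + j + 1) * W ≤ (N * 2) * W := this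
    _ = 2 * W * N := by ring

theorem lowB_eq (n W N c : ℕ) (a : ℕ → ℕ) (ha : ∀ v < N, a v < 2 ^ W) (hc : c < 2 ^ W)
    (hn : 2 * W * N ≤ n) (hW : W ≤ n) :
    lowB W N (mulBits n (slots (2 * W) N a) (bits W c)) =
      slots (2 * W) N fun v => a v * c % 2 ^ W := by
  unfold lowB
  conv_rhs => unfold slots
  apply List.flatMap_congr
  intro v hv
  rw [List.mem_range] at hv
  have h1 := slotAt_word n W N c a ha hc hn hW v 1 hv (by norm_num)
  rw [if_neg (by norm_num)] at h1
  have h2 : a v * c % 2 ^ W < 2 ^ W := Nat.mod_lt _ (by positivity)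
  rw [h1, ← H778.bits_mod W, zeros_append_bits _ _ _ h2, two_mul]

theorem highB_eq (n W N c : ℕ) (a : ℕ → ℕ) (ha : ∀ v < N, a v < 2 ^ W) (hc : c < 2 ^ W)
    (hn : 2 * W * N ≤ n) (hW : W ≤ n) :
    highB W N (mulBits n (slots (2 * W) N a) (bits W c)) =
      slots W N fun v => a v * c / 2 ^ W := by
  unfold highB
  conv_rhs => unfold slots
  apply List.flatMap_congr
  intro v hv
  rw [List.mem_range] at hv
  have h1 := slotAt_word n W N c a ha hc hn hW v 0 hv (by norm_num)
  rw [if_pos rfl] at h1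
  exact h1

end Vale.Agent.P338.R2.H293.Bp
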